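import Vale.Agent.P092.H945.T.A

/-!
Torsion theorem: the support of the minimal projections.
-/

set_option linter.all false

open scoped InnerProductSpace ENNReal Pointwise
open Filter Topology ContinuousLinearMap

namespace Vale.Agent.P092.H945.T

open Vale.Agent.P092.H160 (Cmm)
open Vale.Agent.P092.H628 (sq RInv fn Com esq enorm_adj adj_mul adj_adj enorm_le_op EE esum
  ee_memℓp ee_norm col col_apply col_norm sq_swap sq_congr sq_mono sq_mul_left sq_const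
  sq_translate sq_sub sq_part sq_conj sq_tsum VolBd block_bessel)
open Vale.Agent.P092.H632.T

variable {Γ Λ : Type} [Group Γ] [Group Λ] {H : Type} [NormedAddCommGroup H]
  [InnerProductSpace ℂ H] [CompleteSpace H]

variable {lam : Γ →* (H →L[ℂ] H)} {R : Λ →* (H →L[ℂ] H)} {κ κ' : Type} [Fintype κ] [Fintype κ'] {ω : κ' → H} {ξ : κ → H} {𝒰 : Set (Subgroup Γ)}
  {Θ₀ : Subgroup Γ} {C D : Subgroup Λ} {e f x : H →L[ℂ] H}

theorem ex_mn (h : Sys lam R ω ξ 𝒰) (hx : Qd lam R ξ 𝒰 D x) (hx0 : x ≠ 0) :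
    ∃ e, Mn lam R ξ 𝒰 D e ∧ x * e ≠ 0 :=
  H632.T.exists_mn h (fun _ hy => norm_le h hy) hx hx0

theorem Mn.actL (h : Sys lam R ω ξ 𝒰) (he : Mn lam R ξ 𝒰 D e) (g : Γ) :
    Mn lam R ξ 𝒰 D (lam g * e * lam g⁻¹) where
  mem := he.mem.act h g
  ne := by
    intro h0
    apply he.ne
    calc e = lam g⁻¹ * (lam g * e * lam g⁻¹) * lam g := by
          simp only [mul_assoc]
          rw [inv_cancel_map, mul_one, ← mul_assoc, inv_cancel_map, one_mul]
      _ = 0 := by rw [h0, mul_zero, zero_mul]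
  adj := by
    rw [adj_mul, adj_mul, he.adj, h.regL.adj, h.regL.adj, inv_inv, mul_assoc]
  idem := by
    calc lam g * e * lam g⁻¹ * (lam g * e * lam g⁻¹)
        = lam g * e * (lam g⁻¹ * lam g) * e * lam g⁻¹ := by simp only [mul_assoc]
      _ = lam g * (e * e) * lam g⁻¹ := by rw [inv_cancel_map, mul_one, mul_assoc (lam g) e e]
      _ = _ := by rw [he.idem]
  min := by
    intro x hx
    have hx' := hx.act h g⁻¹
    rw [inv_inv] at hx'
    obtain ⟨c, hc⟩ := he.min _ hx'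
    refine ⟨c, ?_⟩
    calc lam g * e * lam g⁻¹ * x * (lam g * e * lam g⁻¹)
        = lam g * (e * (lam g⁻¹ * x * lam g) * e) * lam g⁻¹ := by simp only [mul_assoc]
      _ = c • (lam g * e * lam g⁻¹) := by
          rw [hc, mul_smul_comm, smul_mul_assoc]

theorem Mn.actR (h : Sys lam R ω ξ 𝒰) (he : Mn lam R ξ 𝒰 D e) (w : Λ) :
    Mn lam R ξ 𝒰 (cjg w D) (R w * e * R w⁻¹) where
  mem := (he.mem.actR h w mem_cjg).1
  ne := by
    intro h0
    apply he.ne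
    calc e = R w⁻¹ * (R w * e * R w⁻¹) * R w := by
          simp only [mul_assoc]
          rw [inv_cancel_map, mul_one, ← mul_assoc, inv_cancel_map, one_mul]
      _ = 0 := by rw [h0, mul_zero, zero_mul]
  adj := by
    rw [adj_mul, adj_mul, he.adj, h.regR.adj, h.regR.adj, inv_inv, mul_assoc]
  idem := by
    calc R w * e * R w⁻¹ * (R w * e * R w⁻¹)
        = R w * e * (R w⁻¹ * R w) * e * R w⁻¹ := by simp only [mul_assoc]
      _ = R w * (e * e) * R w⁻¹ := by rw [inv_cancel_map, mul_one, mul_assoc (R w) e e]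
      _ = _ := by rw [he.idem]
  min := by
    intro x hx
    have hx' := (hx.actR h w⁻¹ (D' := D) (fun k => by
      rw [mem_cjg, inv_inv]
      have : w⁻¹ * (w * k * w⁻¹) * w = k := by group
      rw [this])).1
    rw [inv_inv] at hx'
    obtain ⟨c, hc⟩ := he.min _ hx'
    refine ⟨c, ?_⟩
    calc R w * e * R w⁻¹ * x * (R w * e * R w⁻¹)
        = R w * (e * (R w⁻¹ * x * R w) * e) * R w⁻¹ := by simp only [mul_assoc]
      _ = c • (R w * e * R w⁻¹) := by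
          rw [hc, mul_smul_comm, smul_mul_assoc]

theorem nn_actR (h : Sys lam R ω ξ 𝒰) (he : Mn lam R ξ 𝒰 D e) (w : Λ) :
    nn R (cjg w D) ξ (R w * e * R w⁻¹) = nn R D ξ e := (he.mem.actR h w mem_cjg).2

/-- The closed span of the ranges of the minimal projections of `Qd D`. -/
noncomputable def Sp (lam : Γ →* (H →L[ℂ] H)) (R : Λ →* (H →L[ℂ] H)) (ξ : κ → H)
    (𝒰 : Set (Subgroup Γ)) (D : Subgroup Λ) : Submodule ℂ H :=
  (Submodule.span ℂ {v | ∃ e, Mn lam R ξ 𝒰 D e ∧ ∃ w, v = e w}).topologicalClosure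

instance : (Sp lam R ξ 𝒰 D).HasOrthogonalProjection := by
  haveI : CompleteSpace (Sp lam R ξ 𝒰 D) :=
    (Submodule.isClosed_topologicalClosure _).completeSpace_coe
  infer_instance

/-- The support projection. -/
noncomputable def PP (lam : Γ →* (H →L[ℂ] H)) (R : Λ →* (H →L[ℂ] H)) (ξ : κ → H)
    (𝒰 : Set (Subgroup Γ)) (D : Subgroup Λ) : H →L[ℂ] H :=
  (Sp lam R ξ 𝒰 D).starProjection

theorem mem_Sp (he : Mn lam R ξ 𝒰 D e) (w : H) : e w ∈ Sp lam R ξ 𝒰 D :=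
  Submodule.le_topologicalClosure _ (Submodule.subset_span ⟨e, he, w, rfl⟩)

theorem PP_adj : adjoint (PP lam R ξ 𝒰 D) = PP lam R ξ 𝒰 D :=
  (isSelfAdjoint_starProjection _)

theorem PP_idem : PP lam R ξ 𝒰 D * PP lam R ξ 𝒰 D = PP lam R ξ 𝒰 D :=
  Submodule.isIdempotentElem_starProjection _

theorem PP_mul (he : Mn lam R ξ 𝒰 D e) : PP lam R ξ 𝒰 D * e = e := by
  ext w
  exact Submodule.starProjection_eq_self_iff.mpr (mem_Sp he w)

theorem mul_PP (he : Mn lam R ξ 𝒰 D e) : e * PP lam R ξ 𝒰 D = e := by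
  have := congrArg adjoint (PP_mul he)
  rwa [adj_mul, PP_adj, he.adj] at this

/-- An operator which kills all minimal projections kills the support. -/
theorem kill {T : H →L[ℂ] H} (hT : ∀ e, Mn lam R ξ 𝒰 D e → T * e = 0) :
    T * PP lam R ξ 𝒰 D = 0 := by
  have h1 : Sp lam R ξ 𝒰 D ≤ LinearMap.ker (T : H →ₗ[ℂ] H) := by
    refine Submodule.topologicalClosure_minimal _ ?_ T.isClosed_ker
    rw [Submodule.span_le]
    rintro v ⟨e, he, w, rfl⟩
    have := congrArg (fun S : H →L[ℂ] H => S w) (hT e he)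
    simpa using this
  ext v
  exact h1 (Submodule.starProjection_apply_mem _ v)

/-- invariance of the closed span -/
theorem Sp_map {V : H →L[ℂ] H} (hV : ∀ e, Mn lam R ξ 𝒰 D e → ∀ w, V (e w) ∈ Sp lam R ξ 𝒰 D) :
    ∀ v ∈ Sp lam R ξ 𝒰 D, V v ∈ Sp lam R ξ 𝒰 D := by
  have h1 : Sp lam R ξ 𝒰 D ≤ (Sp lam R ξ 𝒰 D).comap (V : H →ₗ[ℂ] H) := by
    refine Submodule.topologicalClosure_minimal _ ?_ ?_
    · rw [Submodule.span_le]
      rintro v ⟨e, he, w, rfl⟩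
      exact hV e he w
    · exact (Submodule.isClosed_topologicalClosure _).preimage V.continuous
  exact fun v hv => h1 hv

theorem PP_cmm (h : Sys lam R ω ξ 𝒰) : Cmm lam (PP lam R ξ 𝒰 D) := by
  have key : ∀ g : Γ, ∀ v ∈ Sp lam R ξ 𝒰 D, lam g v ∈ Sp lam R ξ 𝒰 D := by
    intro g
    refine Sp_map fun e he w => ?_
    have h1 := mem_Sp (Mn.actL h he g) (lam g w)
    rwa [H160.mul_ap, h.regL.inv_apply] at h1
  intro g
  exact star_comm _ (h.regL.adj g) (key g) (key g⁻¹)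

theorem PP_com (h : Sys lam R ω ξ 𝒰) : Com R D (PP lam R ξ 𝒰 D) := by
  have key : ∀ k ∈ D, ∀ v ∈ Sp lam R ξ 𝒰 D, R k v ∈ Sp lam R ξ 𝒰 D := by
    intro k hk
    refine Sp_map fun e he w => ?_
    rw [← he.mem.comR.apply hk]
    exact mem_Sp he _
  intro k hk
  exact star_comm _ (h.regR.adj k) (key k hk) (key k⁻¹ (D.inv_mem hk))

theorem sub_PP_cmm (h : Sys lam R ω ξ 𝒰) : Cmm lam (1 - PP lam R ξ 𝒰 D) :=
  H160.Cmm.sub H160.Cmm.one (PP_cmm h)

theorem sub_PP_com (h : Sys lam R ω ξ 𝒰) : Com R D (1 - PP lam R ξ 𝒰 D) :=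
  Com.one.sub (PP_com h)

/-- Elements of `Qd D` live on the support. -/
theorem Qd_PP (h : Sys lam R ω ξ 𝒰) (hx : Qd lam R ξ 𝒰 D x) :
    x * PP lam R ξ 𝒰 D = x := by
  by_contra hne
  set y := x * (1 - PP lam R ξ 𝒰 D) with hy
  have hy0 : y ≠ 0 := by
    intro h0
    apply hne
    rw [hy, mul_sub, mul_one, sub_eq_zero] at h0
    exact h0.symm
  have hyQ : Qd lam R ξ 𝒰 D y := hx.mulR h (sub_PP_cmm h) (sub_PP_com h)
  obtain ⟨e, he, heq⟩ := ex_mn h hyQ hy0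
  apply heq
  rw [hy, mul_assoc, sub_mul, one_mul, PP_mul he, sub_self, mul_zero]

/-- averaging over `C / D'` -/
theorem avg (h : Sys lam R ω ξ 𝒰) {D' : Subgroup Λ} (hD : D' ≤ C)
    (hx : Qd lam R ξ 𝒰 D' x) :
    ∃ X, Qd lam R ξ 𝒰 C X ∧ ∀ ζ, X ζ = 0 → x ζ = 0 := by
  have hfin : nn R D' ξ x ≠ ⊤ := hx.fin
  set c0 : ℝ := Real.sqrt (nn R D' ξ x).toReal with hc0
  have hc0' : c0 ^ 2 = (nn R D' ξ x).toReal := Real.sq_sqrt ENNReal.toReal_nonneg
  have hbd : ∀ ζ : H, sq (D'.subgroupOf C) (fun c : C => ‖x (R (c : Λ)⁻¹ ζ)‖ₑ ^ 2) ≤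
      nn R D' ξ x * ‖ζ‖ₑ ^ 2 := by
    intro ζ
    rw [← K_eq h hx ζ]
    exact sq_part C (rinv h.regR hx.comR ζ)
  set T : C ⧸ D'.subgroupOf C → H →L[ℂ] H := fun q => x * R ((q.out : C) : Λ)⁻¹ with hT
  have hT' : ∀ ζ : H, ∑' i, ‖T i ζ‖ₑ ^ 2 ≤ ENNReal.ofReal (c0 ^ 2 * ‖ζ‖ ^ 2) := by
    intro ζ
    refine (hbd ζ).trans (le_of_eq ?_)
    rw [hc0', ENNReal.ofReal_mul ENNReal.toReal_nonneg, ENNReal.ofReal_toReal hfin, esq]
  set A : H →L[ℂ] EE (C ⧸ D'.subgroupOf C) H := col T c0 hT' with hA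
  have hAn : ∀ ζ : H, ‖A ζ‖ₑ ^ 2 =
      sq (D'.subgroupOf C) (fun c : C => ‖x (R (c : Λ)⁻¹ ζ)‖ₑ ^ 2) := fun ζ => col_norm T c0 hT' ζ
  have hnorm : ∀ ζ ζ' : H, ‖A ζ‖ₑ ^ 2 = ‖A ζ'‖ₑ ^ 2 → ‖A ζ‖ = ‖A ζ'‖ := by
    intro ζ ζ' h1
    rw [esq, esq, ENNReal.ofReal_eq_ofReal_iff (by positivity) (by positivity)] at h1
    exact (pow_left_inj₀ (norm_nonneg _) (norm_nonneg _) two_ne_zero).mp h1
  have hri : ∀ ζ, RInv (D'.subgroupOf C) (fun c : C => ‖x (R (c : Λ)⁻¹ ζ)‖ₑ ^ 2) :=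
    fun ζ c d hd => rinv h.regR hx.comR ζ (c : Λ) (d : Λ) hd
  have hXC : Com R C (adjoint A ∘L A) := by
    intro k hk
    refine comm_of_norm A (h.regR.adj k) (mul_cancel_map R k) fun ζ => ?_
    apply hnorm
    rw [hAn, hAn, ← sq_translate (hri ζ) (⟨k, hk⟩ : C)⁻¹]
    refine sq_congr fun c => ?_
    congr 2
    rw [← H160.mul_ap (R _), ← map_mul]
    congr 2
    simp
  obtain ⟨U, hU, hxU, hxD, _⟩ := hx
  have hXU : Com lam U (adjoint A ∘L A) := by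
    intro k hk
    refine comm_of_norm A (h.regL.adj k) (mul_cancel_map lam k) fun ζ => ?_
    apply hnorm
    rw [hAn, hAn]
    refine sq_congr fun c => ?_
    rw [← H160.mul_ap (R _) (lam k), ← h.comm, H160.mul_ap, hxU.apply hk, enorm_map h.regL]
  have hXfin : nn R C ξ (adjoint A ∘L A) ≠ ⊤ := by
    have h1 : nn R C ξ (adjoint A ∘L A) ≤ ‖adjoint A‖ₑ ^ 2 * nn R D' ξ x := by
      unfold nn
      rw [Finset.mul_sum]
      refine Finset.sum_le_sum fun k _ => ?_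
      have h2 : sq D' (fn R (ξ k) x) =
          sq C (fun v => sq (D'.subgroupOf C) (fun c : C => fn R (ξ k) x (v * c))) :=
        sq_sub hD (rinv h.regR hxD (ξ k))
      rw [h2]
      rw [← sq_mul_left]
      refine sq_mono fun v => ?_
      have h3 : sq (D'.subgroupOf C) (fun c : C => fn R (ξ k) x (v * c)) =
          ‖A (R v⁻¹ (ξ k))‖ₑ ^ 2 := by
        rw [hAn]
        refine sq_congr fun c => ?_
        unfold fn
        rw [mul_inv_rev, map_mul, H160.mul_ap]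
      rw [h3]
      unfold fn
      rw [← mul_pow]
      refine pow_le_pow_left' ?_ 2
      rw [← ofReal_norm_eq_enorm, ← ofReal_norm_eq_enorm, ← ofReal_norm_eq_enorm,
        ← ENNReal.ofReal_mul (norm_nonneg _)]
      exact ENNReal.ofReal_le_ofReal ((adjoint A).le_opNorm _)
    exact ne_top_of_le_ne_top (ENNReal.mul_ne_top (by simp) hfin) h1
  refine ⟨adjoint A ∘L A, ⟨U, hU, hXU, hXC, hXfin⟩, fun ζ hζ => ?_⟩
  have h1 : ‖A ζ‖ ^ 2 = 0 := by
    have h2 : ⟪ζ, (adjoint A ∘L A) ζ⟫_ℂ = ((‖A ζ‖ ^ 2 : ℝ) : ℂ) := by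
      change ⟪ζ, adjoint A (A ζ)⟫_ℂ = _
      rw [adjoint_inner_right, inner_self_eq_norm_sq_to_K]
      norm_cast
    rw [hζ, inner_zero_right] at h2
    exact_mod_cast h2.symm
  have h3 : sq (D'.subgroupOf C) (fun c : C => ‖x (R (c : Λ)⁻¹ ζ)‖ₑ ^ 2) = 0 := by
    rw [← hAn, esq, h1, ENNReal.ofReal_zero]
  unfold H628.sq at h3
  have h4 := (ENNReal.tsum_eq_zero.mp h3) ((1 : C) : C ⧸ D'.subgroupOf C)
  have h5 := (hri ζ).out (1 : C)
  simp only at h5 h4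
  rw [h5] at h4
  have h6 : ((1 : C) : Λ)⁻¹ = 1 := by simp
  rw [h6, map_one] at h4
  simpa using h4

/-- Elements of `Qd D'`, `D' ≤ C`, live on the support of `Qd C`. -/
theorem Qd_PP' (h : Sys lam R ω ξ 𝒰) {D' : Subgroup Λ} (hD : D' ≤ C)
    (hx : Qd lam R ξ 𝒰 D' x) : x * PP lam R ξ 𝒰 C = x := by
  obtain ⟨X, hX, hk⟩ := avg h hD hx
  ext v
  have h1 : X (v - PP lam R ξ 𝒰 C v) = 0 := by
    have h2 := congrArg (fun S : H →L[ℂ] H => S v) (Qd_PP h hX)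
    simp only [H160.mul_ap] at h2
    rw [map_sub, h2, sub_self]
  have h3 := hk _ h1
  rw [map_sub, sub_eq_zero] at h3
  exact h3.symm

theorem Qd.of_comm (h : Sys lam R ω ξ 𝒰) (hx : Qd lam R ξ 𝒰 D x) (hC : C.relIndex D ≠ 0) :
    Qd lam R ξ 𝒰 (C ⊓ D) x := by
  refine hx.sub_group h inf_le_right ?_
  rw [Subgroup.inf_subgroupOf_right]
  haveI : (C.subgroupOf D).FiniteIndex := ⟨hC⟩
  haveI : Finite (D ⧸ C.subgroupOf D) := Subgroup.finite_quotient_of_finiteIndex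
  rw [ENat.card_eq_coe_natCard]
  exact ENat.coe_ne_top _

/-- Commensurable subgroups have the same support. -/
theorem Qd_PP'' (h : Sys lam R ω ξ 𝒰) (hC : C.relIndex D ≠ 0)
    (hx : Qd lam R ξ 𝒰 D x) : x * PP lam R ξ 𝒰 C = x :=
  Qd_PP' h inf_le_left (Qd.of_comm h hx hC)

end Vale.Agent.P092.H945.T
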