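import Vale.Agent.P092.H945.T.B

/-!
Torsion theorem: `C` is commensurated and the support of `Qd C` is everything.
-/

set_option linter.all false

open scoped InnerProductSpace ENNReal Pointwise
open Filter Topology ContinuousLinearMap

namespace Vale.Agent.P092.H945.T

open Vale.Agent.P092.H160 (Cmm)
open Vale.Agent.P092.H628 (sq RInv fn Com esq enorm_adj adj_mul adj_adj enorm_le_op EE esum
  ee_memℓp ee_norm col col_apply col_norm sq_swap sq_congr sq_mono sq_mul_left sq_const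
  sq_translate sq_sub sq_part sq_conj sq_tsum VolBd block_bessel)
open Vale.Agent.P092.H632.T

variable {Γ Λ : Type} [Group Γ] [Group Λ] {H : Type} [NormedAddCommGroup H]
  [InnerProductSpace ℂ H] [CompleteSpace H]

variable {lam : Γ →* (H →L[ℂ] H)} {R : Λ →* (H →L[ℂ] H)} {κ κ' : Type} [Fintype κ] [Fintype κ'] {ω : κ' → H} {ξ : κ → H} {𝒰 : Set (Subgroup Γ)}
  {Θ₀ : Subgroup Γ} {C D : Subgroup Λ} {e f x y : H →L[ℂ] H}

theorem exists_U (h : Sys lam R ω ξ 𝒰) (hV : VolBd 𝒰 Θ₀) (hx : Qd lam R ξ 𝒰 C x)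
    (hy : Qd lam R ξ 𝒰 D y) : ∃ U ∈ 𝒰, U ≤ Θ₀ ∧ Com lam U x ∧ Com lam U y := by
  obtain ⟨U₁, hU₁, h1, _, _⟩ := hx
  obtain ⟨U₂, hU₂, h2, _, _⟩ := hy
  refine ⟨U₁ ⊓ U₂ ⊓ Θ₀, h.inf _ (h.inf _ hU₁ _ hU₂) _ hV.1, inf_le_right,
    h1.mono (inf_le_left.trans inf_le_left), h2.mono (inf_le_left.trans inf_le_right)⟩

theorem fin_M (h : Sys lam R ω ξ 𝒰) (hV : VolBd 𝒰 Θ₀) (he : Mn lam R ξ 𝒰 C e) (hC : C.index = 0)
    {U : Subgroup Γ} (hU : U ∈ 𝒰) (hUΘ : U ≤ Θ₀) (hUe : Com lam U e) :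
    nn lam U ω e ≠ ⊤ := by
  refine ne_top_of_le_ne_top ?_ (he.bound h hC hV hU hUΘ hUe (p := 1)
    (by rw [← star_eq_adjoint, star_one])
    H160.Cmm.one (one_mul e))
  refine ENNReal.mul_ne_top (by simp) ?_
  simp only [one_apply_eq_self]
  rw [h.regL.nrm]
  exact ENNReal.one_ne_top

theorem relIndex_ne (h : Sys lam R ω ξ 𝒰) (hV : VolBd 𝒰 Θ₀) (he : Mn lam R ξ 𝒰 C e)
    (hf : Mn lam R ξ 𝒰 D f) (hC : C.index = 0) (hfe : f * e ≠ 0) : D.relIndex C ≠ 0 := by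
  obtain ⟨U, hU, hUΘ, hUe, hUf⟩ := exists_U h hV he.mem hf.mem
  obtain ⟨l, hl, hq⟩ := cmp_aux h he hf
  have h1 := cmp_M h he hf hq hUe hUf
  have h2 : l * nn lam U ω e ≠ ⊤ := ENNReal.mul_ne_top hl (fin_M h hV he hC hU hUΘ hUe)
  have h3 : nn lam U ω (f * e) ≠ 0 := fun h0 => hfe (nn_eq_zero h.regL (hUf.mul hUe) h0)
  intro h0
  apply h2
  rw [h1]
  haveI : Infinite (C ⧸ D.subgroupOf C) := by
    by_contra hc
    rw [not_infinite_iff_finite] at hc
    have : (D.subgroupOf C).FiniteIndex := Subgroup.finiteIndex_of_finite_quotient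
    exact this.index_ne_zero h0
  rw [ENat.card_eq_top_of_infinite, ENat.toENNReal_top, ENNReal.top_mul h3]

theorem orth (h : Sys lam R ω ξ 𝒰) (hV : VolBd 𝒰 Θ₀) (hC : C.index = 0) {w : Λ}
    (hw : w ∉ Cmr C) : PP lam R ξ 𝒰 C * (R w * PP lam R ξ 𝒰 C) = 0 := by
  rw [← mul_assoc]
  refine kill fun e' he' => ?_
  have hf := Mn.actR h he' w
  set f := R w * e' * R w⁻¹ with hfdef
  have h1 : ∀ e, Mn lam R ξ 𝒰 C e → f * e = 0 := by
    intro e he
    by_contra hne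
    apply hw
    rw [mem_Cmr]
    refine ⟨relIndex_ne h hV he hf hC hne, relIndex_ne h hV hf he ?_ ?_⟩
    · rw [index_cjg, hC]
    · intro h0
      apply hne
      have := congrArg adjoint h0
      rwa [adj_mul, hf.adj, he.adj, map_zero] at this
  have h2 : f * PP lam R ξ 𝒰 C = 0 := kill h1
  have h3 : PP lam R ξ 𝒰 C * f = 0 := by
    have := congrArg adjoint h2
    rwa [adj_mul, hf.adj, PP_adj, map_zero] at this
  calc PP lam R ξ 𝒰 C * R w * e' = PP lam R ξ 𝒰 C * (R w * e' * (R w⁻¹ * R w)) := by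
        rw [inv_cancel_map, mul_one, mul_assoc]
    _ = (PP lam R ξ 𝒰 C * f) * R w := by rw [hfdef]; simp only [mul_assoc]
    _ = 0 := by rw [h3, zero_mul]

theorem Cmr_com (h : Sys lam R ω ξ 𝒰) : Com R (Cmr C) (PP lam R ξ 𝒰 C) := by
  have key : ∀ w ∈ Cmr C, ∀ v ∈ Sp lam R ξ 𝒰 C, R w v ∈ Sp lam R ξ 𝒰 C := by
    intro w hw
    refine Sp_map fun e he v => ?_
    have hf := Mn.actR h he w
    have h1 := Qd_PP'' h (mem_Cmr.mp hw).2 hf.mem
    have h2 := congrArg adjoint h1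
    rw [adj_mul, hf.adj, PP_adj] at h2
    have h3 := congrArg (fun S : H →L[ℂ] H => S (R w v)) h2
    simp only [H160.mul_ap] at h3
    rw [h.regR.inv_apply] at h3
    rw [← h3]
    exact Submodule.starProjection_apply_mem _ _
  intro w hw
  exact star_comm _ (h.regR.adj w) (key w hw) (key w⁻¹ ((Cmr C).inv_mem hw))

theorem Cmr_index (h : Sys lam R ω ξ 𝒰) (hV : VolBd 𝒰 Θ₀) (hC : C.index = 0)
    (he : Mn lam R ξ 𝒰 C e) : (Cmr C).index ≠ 0 := by
  classical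
  intro h0
  have hP : PP lam R ξ 𝒰 C = 0 := by
    obtain ⟨U, hU⟩ := h.ne
    refine not_cmm h (PP_cmm h) ⟨U, hU, Com.of_cmm (PP_cmm h), Cmr_com h, ?_⟩ h0
    refine ne_top_of_le_ne_top (b := ∑ k, ‖ξ k‖ₑ ^ 2) (by rw [h.regR.nrm]; exact ENNReal.one_ne_top) ?_
    unfold nn
    refine Finset.sum_le_sum fun k _ => ?_
    have h1 : sq (Cmr C) (fn R (ξ k) (PP lam R ξ 𝒰 C)) ≤ ENNReal.ofReal (‖ξ k‖ ^ 2) := by
      unfold H628.sq
      rw [ENNReal.tsum_eq_iSup_sum]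
      refine iSup_le fun s => ?_
      set E : Λ ⧸ Cmr C → Unit → H →L[ℂ] H :=
        fun q _ => R q.out * PP lam R ξ 𝒰 C * R q.out⁻¹ with hE
      have h2 := block_bessel (κ := Unit) s E ?_ ?_ ?_ (ξ k)
      · simp only [Finset.univ_unique, Finset.sum_singleton, Fintype.card_unit, Nat.cast_one,
          one_mul] at h2
        calc ∑ q ∈ s, fn R (ξ k) (PP lam R ξ 𝒰 C) q.out
            = ∑ q ∈ s, ENNReal.ofReal (‖E q () (ξ k)‖ ^ 2) := by
              refine Finset.sum_congr rfl fun q _ => ?_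
              unfold fn
              rw [esq]
              congr 2
              simp only [hE, H160.mul_ap]
              rw [h.regR.norm_map]
          _ = ENNReal.ofReal (∑ q ∈ s, ‖E q () (ξ k)‖ ^ 2) := by
              rw [ENNReal.ofReal_sum_of_nonneg fun _ _ => by positivity]
          _ ≤ _ := ENNReal.ofReal_le_ofReal h2
      · intro q _
        simp only [hE]
        rw [adj_mul, adj_mul, PP_adj, h.regR.adj, h.regR.adj, inv_inv, mul_assoc]
      · intro q _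
        simp only [hE]
        calc R q.out * PP lam R ξ 𝒰 C * R q.out⁻¹ * (R q.out * PP lam R ξ 𝒰 C * R q.out⁻¹)
            = R q.out * PP lam R ξ 𝒰 C * (R q.out⁻¹ * R q.out) * PP lam R ξ 𝒰 C * R q.out⁻¹ := by
              simp only [mul_assoc]
          _ = R q.out * (PP lam R ξ 𝒰 C * PP lam R ξ 𝒰 C) * R q.out⁻¹ := by
              rw [inv_cancel_map, mul_one, mul_assoc (R q.out) (PP lam R ξ 𝒰 C) _]
          _ = _ := by rw [PP_idem]
      · intro q _ q' _ hne _ _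
        simp only [hE]
        have hw : q.out⁻¹ * q'.out ∉ Cmr C := by
          intro hm
          apply hne
          rw [← QuotientGroup.eq, QuotientGroup.out_eq', QuotientGroup.out_eq'] at hm
          exact hm
        have h3 := orth h hV hC hw
        calc R q.out * PP lam R ξ 𝒰 C * R q.out⁻¹ * (R q'.out * PP lam R ξ 𝒰 C * R q'.out⁻¹)
            = R q.out * (PP lam R ξ 𝒰 C * (R (q.out⁻¹ * q'.out) * PP lam R ξ 𝒰 C))
                * R q'.out⁻¹ := by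
              rw [map_mul]; simp only [mul_assoc]
          _ = 0 := by rw [h3, mul_zero, zero_mul]
    rwa [← esq] at h1
  have h2 := PP_mul he
  rw [hP, zero_mul] at h2
  exact he.ne h2.symm

/-- The trace of `x R(w)` vanishes for `w ≠ 1`. -/
theorem tr_zero (h : Sys lam R ω ξ 𝒰)
    (hΛ : ∀ g : Λ, g ≠ 1 → Set.Infinite {y : Λ | ∃ k : Λ, y = k * g * k⁻¹})
    {L : Subgroup Λ} (hL : L.index ≠ 0) (hx : Cmm lam x) (hx' : Com R L x) {w : Λ} (hw : w ≠ 1) :
    ∑ k, ⟪ω k, x (R w (ω k))⟫_ℂ = 0 := by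
  have hct : ∀ y : H →L[ℂ] H, Cmm lam y → Com lam ⊤ y := fun y hy g _ => hy g
  have hfin : ∀ y : H →L[ℂ] H, Cmm lam y → nn lam ⊤ ω y ≠ ⊤ := by
    intro y hy
    unfold nn H628.sq
    refine (ENNReal.sum_lt_top.mpr fun k _ => ?_).ne
    haveI : Subsingleton (Γ ⧸ (⊤ : Subgroup Γ)) := QuotientGroup.subsingleton_quotient_top
    haveI : Unique (Γ ⧸ (⊤ : Subgroup Γ)) := uniqueOfSubsingleton ((1 : Γ) : Γ ⧸ (⊤ : Subgroup Γ))
    rw [tsum_eq_single ((1 : Γ) : Γ ⧸ (⊤ : Subgroup Γ)) (fun b hb => absurd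
      (Subsingleton.elim _ _) hb)]
    unfold fn
    rw [esq]
    exact ENNReal.ofReal_lt_top
  have hip : ∀ a b : H →L[ℂ] H, Cmm lam a → Cmm lam b →
      ip lam ⊤ ω a b = ∑ k, ⟪a (ω k), b (ω k)⟫_ℂ := by
    intro a b ha hb
    unfold ip
    haveI : Subsingleton (Γ ⧸ (⊤ : Subgroup Γ)) := QuotientGroup.subsingleton_quotient_top
    haveI : Unique (Γ ⧸ (⊤ : Subgroup Γ)) := uniqueOfSubsingleton ((1 : Γ) : Γ ⧸ (⊤ : Subgroup Γ))
    rw [tsum_fintype, Fintype.sum_prod_type]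
    refine Finset.sum_congr rfl fun k _ => ?_
    rw [Fintype.sum_unique]
    rw [ha.apply, hb.apply, h.regL.inner_map]
  set F : Λ → ℂ := fun w => ∑ k, ⟪ω k, x (R w (ω k))⟫_ℂ with hF
  have hlim : Tendsto F cofinite (𝓝 0) := by
    have h1 : Tendsto F cofinite (𝓝 (∑ k : κ', (0 : ℂ))) := by
      refine tendsto_finsetSum _ fun k _ => ?_
      have h2 := coeff0 h.regR (adjoint x (ω k)) (ω k)
      refine h2.congr fun w => ?_
      rw [adjoint_inner_left]
    simpa using h1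
  have hconst : ∀ l ∈ (L : Set Λ), F (l * w * l⁻¹) = F w := by
    intro l hl
    have hl' : l ∈ L := hl
    simp only [hF]
    have e1 : ∑ k, ⟪ω k, x (R w (ω k))⟫_ℂ = ip lam ⊤ ω 1 (x * R w) := by
      rw [hip _ _ H160.Cmm.one (hx.mul (h.comRL w))]
      rfl
    have e2 : ∑ k, ⟪ω k, x (R (l * w * l⁻¹) (ω k))⟫_ℂ =
        ip lam ⊤ ω (1 * R l⁻¹) (x * R w * R l⁻¹) := by
      rw [hip _ _ (H160.Cmm.one.mul (h.comRL _)) ((hx.mul (h.comRL w)).mul (h.comRL _))]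
      refine Finset.sum_congr rfl fun k _ => ?_
      rw [one_mul, ← h.regR.inner_right]
      congr 1
      rw [map_mul, map_mul, H160.mul_ap, H160.mul_ap, hx'.apply hl', H160.mul_ap, H160.mul_ap]
    rw [e1, e2]
    refine ip_right_isom h.regL (hct _ H160.Cmm.one) (hct _ (hx.mul (h.comRL w)))
      (hct _ (h.comRL _)) (hfin _ H160.Cmm.one) (hfin _ (hx.mul (h.comRL w))) fun a b => ?_
    rw [h.regR.adj, h.regR.inner_map]
  have hinf := orb_finiteIndex hΛ L hL w hw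
  by_contra hne
  have h1 : ∀ᶠ y in cofinite, ‖F y‖ < ‖F w‖ := by
    have h2 := (tendsto_zero_iff_norm_tendsto_zero.mp hlim).eventually_lt_const
      (show (0 : ℝ) < ‖F w‖ from norm_pos_iff.mpr hne)
    exact h2
  apply hinf
  refine (Filter.eventually_cofinite.mp h1).subset ?_
  rintro y ⟨l, hl, rfl⟩
  simp only [Set.mem_setOf_eq, not_lt]
  rw [hconst l hl]

end Vale.Agent.P092.H945.T
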